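import Vale.Agent.P016.Bdl.B2

namespace Vale.Agent.Results.P016.AverageForms

open Vale.Agent.P016

open Classical in
theorem result :
    -- one x at a time: the exceptional set for all integers |a| ≤ y
    ((∀ δ D : ℝ, 0 < δ → 0 ≤ D →
      ∃ K c : ℝ, 0 < c ∧ ∃ x₀ : ℕ, ∀ x : ℕ, x₀ ≤ x → ∀ y : ℕ, (Real.log x) ^ K ≤ y →
      (((Finset.Icc (-(y : ℤ)) (y : ℤ)).filter (fun a : ℤ =>
        δ * artinMain x / (Real.log x) ^ D < |(artinCount a x : ℝ) - artinMain x|)).card : ℝ) ≤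
      y * Real.exp (-(c * ((Real.log (min (y : ℝ) x) / Real.log (Real.log x)) *
        Real.log (Real.log (min (y : ℝ) x) / Real.log (Real.log x)))))) ∧
    (∀ δ : ℝ, 0 < δ →
      ∃ K c : ℝ, 0 < c ∧ ∃ x₀ : ℕ, ∀ x : ℕ, x₀ ≤ x → ∀ y : ℕ, (Real.log x) ^ K ≤ y →
      (((Finset.Icc (-(y : ℤ)) (y : ℤ)).filter (fun a : ℤ =>
        δ * (x / Real.log x) <
          |(artinCount a x : ℝ) - artinConst * (x / Real.log x)|)).card : ℝ) ≤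
      y * Real.exp (-(c * ((Real.log (min (y : ℝ) x) / Real.log (Real.log x)) *
        Real.log (Real.log (min (y : ℝ) x) / Real.log (Real.log x))))))) ∧
    -- one x at a time: bases a = m q with q prime, and integers with a prime factor > z
    (∀ κ δ D : ℝ, 0 < κ → 0 < δ → 0 ≤ D →
      (∃ c : ℝ, 0 < c ∧ ∃ x₀ : ℕ, ∀ x : ℕ, x₀ ≤ x →
        ∀ m : ℤ, m ≠ 0 → (m.natAbs.primeFactors.card : ℝ) ≤ Real.sqrt x → ∀ Y : ℕ,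
        (((Finset.range (Y + 1)).filter (fun q : ℕ => q.Prime ∧
          δ * artinMain x / (Real.log x) ^ D <
            |(artinCount (m * q) x : ℝ) - artinMain x|)).card : ℝ) ≤
        (Y : ℝ) ^ (1 / 2 + κ) * (Real.log x) ^ (1 + 2 * D + κ) + Y * (x : ℝ) ^ (-c)) ∧
      (∃ c : ℝ, 0 < c ∧ ∃ x₀ : ℕ, ∀ x : ℕ, x₀ ≤ x →
        ∀ z : ℝ, 1 ≤ z → ∀ y : ℕ,
        (((Finset.Icc (-(y : ℤ)) (y : ℤ)).filter (fun a : ℤ => a ≠ 0 ∧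
          (∃ q : ℕ, q.Prime ∧ (q : ℤ) ∣ a ∧ z < q) ∧
          δ * artinMain x / (Real.log x) ^ D <
            |(artinCount a x : ℝ) - artinMain x|)).card : ℝ) ≤
        y * (z ^ (-(1 / 2) + κ) * (Real.log x) ^ (1 + 2 * D + κ) + (x : ℝ) ^ (-c)))) ∧
    -- all x simultaneously
    ((∀ δ : ℝ, 0 < δ → ∃ K X₀ : ℕ, ∀ y : ℕ,
      (((Finset.Icc (-(y : ℤ)) (y : ℤ)).filter (fun a : ℤ => ∃ x : ℕ, X₀ ≤ x ∧
        (Real.log x) ^ K ≤ y ∧ δ * (x / Real.log x) <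
          |(artinCount a x : ℝ) - artinConst * (x / Real.log x)|)).card : ℝ) ≤ δ * y) ∧
    (∀ κ δ : ℝ, 0 < κ → 0 < δ → ∃ c : ℝ, 0 < c ∧ ∃ x₀ : ℕ, ∀ X₀ : ℕ, x₀ ≤ X₀ → ∀ Y : ℕ,
      (((Finset.range (Y + 1)).filter (fun q : ℕ => q.Prime ∧ ∃ x : ℕ, X₀ ≤ x ∧
        (Real.log x) ^ (4 + κ) ≤ Y ∧ δ * (x / Real.log x) <
          |(artinCount q x : ℝ) - artinConst * (x / Real.log x)|)).card : ℝ) ≤
      (Y : ℝ) ^ (1 - c) + Y * (X₀ : ℝ) ^ (-c)) ∧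
    (∀ κ δ : ℝ, 0 < κ → 0 < δ → ∃ c : ℝ, 0 < c ∧ ∃ x₀ : ℕ, ∀ X₀ X : ℕ, x₀ ≤ X₀ → X₀ ≤ X →
      ∀ z : ℝ, 1 ≤ z → ∀ y : ℕ,
      (((Finset.Icc (-(y : ℤ)) (y : ℤ)).filter (fun a : ℤ => a ≠ 0 ∧
        (∃ q : ℕ, q.Prime ∧ (q : ℤ) ∣ a ∧ z < q) ∧ ∃ x : ℕ, X₀ ≤ x ∧ x ≤ X ∧
        δ * (x / Real.log x) <
          |(artinCount a x : ℝ) - artinConst * (x / Real.log x)|)).card : ℝ) ≤
      y * (z ^ (-(1 / 2) + κ) * (Real.log X) ^ (2 + κ) + (X₀ : ℝ) ^ (-c)))) :=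
  ⟨⟨excM, excA⟩,
    fun κ δ D hκ hδ hD => ⟨primeBases κ δ D hκ hδ hD, intBases κ δ D hκ hδ hD⟩,
    ⟨unif_almost_const, unif_primes, unif_int⟩⟩

end Vale.Agent.Results.P016.AverageForms
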